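import Mathlib

/-!
# The Prékopa–Leindler inequality

For `a, b > 0` with `a + b = 1` and measurable `f g h : ℝⁿ → ℝ≥0∞` with
`f x ^ a * g y ^ b ≤ h (a • x + b • y)` we prove `(∫⁻ f) ^ a * (∫⁻ g) ^ b ≤ ∫⁻ h`.
-/

set_option autoImplicit false

namespace Crest.Agent.Lib.PL

open MeasureTheory Set
open scoped ENNReal NNReal

/-- One-dimensional Brunn–Minkowski inequality, compact case. -/
theorem bm_one_compact {a b : ℝ} (ha : 0 < a) (hb : 0 < b) (hab : a + b = 1)
    {A B C : Set ℝ} (hA : IsCompact A) (hB : IsCompact B) (hAn : A.Nonempty) (hBn : B.Nonempty)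
    (H : ∀ x ∈ A, ∀ y ∈ B, a * x + b * y ∈ C) :
    ENNReal.ofReal a * volume A + ENNReal.ofReal b * volume B ≤ volume C := by
  obtain ⟨p, hpA, hp⟩ := hA.exists_isGreatest hAn
  obtain ⟨q, hqB, hq⟩ := hB.exists_isLeast hBn
  set m := a * p + b * q with hm
  have h1 : ENNReal.ofReal a * volume A ≤ volume (C ∩ Iic m) := by
    have e := Measure.addHaar_image_homothety (volume : Measure ℝ) q a A
    simp only [Module.finrank_self, pow_one, abs_of_pos ha] at e
    rw [← e]
    refine measure_mono ?_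
    rintro _ ⟨x, hx, rfl⟩
    have hx' : AffineMap.homothety q a x = a * x + b * q := by
      simp only [AffineMap.homothety_apply, vsub_eq_sub, smul_eq_mul, vadd_eq_add]
      have : b = 1 - a := by linarith
      rw [this]; ring
    rw [hx']
    refine ⟨H x hx q hqB, ?_⟩
    have := hp hx
    simp only [mem_Iic, hm]
    nlinarith
  have h2 : ENNReal.ofReal b * volume B ≤ volume (C \ Iic m) := by
    have e := Measure.addHaar_image_homothety (volume : Measure ℝ) p b B
    simp only [Module.finrank_self, pow_one, abs_of_pos hb] at e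
    rw [← e, ← measure_congr (insert_ae_eq_self m (C \ Iic m))]
    refine measure_mono ?_
    rintro _ ⟨y, hy, rfl⟩
    have hy' : AffineMap.homothety p b y = a * p + b * y := by
      simp only [AffineMap.homothety_apply, vsub_eq_sub, smul_eq_mul, vadd_eq_add]
      have : a = 1 - b := by linarith
      rw [this]; ring
    rw [hy']
    have h3 := hq hy
    rcases h3.eq_or_lt with h4 | h4
    · left; rw [hm, h4]
    · right
      refine ⟨H p hpA y hy, ?_⟩
      simp only [mem_Iic, hm, not_le]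
      nlinarith
  calc ENNReal.ofReal a * volume A + ENNReal.ofReal b * volume B
      ≤ volume (C ∩ Iic m) + volume (C \ Iic m) := add_le_add h1 h2
    _ = volume C := measure_inter_add_sdiff C measurableSet_Iic

/-- One-dimensional Brunn–Minkowski inequality for nonempty measurable sets. -/
theorem bm_one {a b : ℝ} (ha : 0 < a) (hb : 0 < b) (hab : a + b = 1)
    {A B C : Set ℝ} (hA : MeasurableSet A) (hB : MeasurableSet B) (hAn : A.Nonempty)
    (hBn : B.Nonempty) (H : ∀ x ∈ A, ∀ y ∈ B, a * x + b * y ∈ C) :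
    ENNReal.ofReal a * volume A + ENNReal.ofReal b * volume B ≤ volume C := by
  obtain ⟨p, hp⟩ := hAn
  obtain ⟨q, hq⟩ := hBn
  have eA : volume A = ⨆ K : {K : Set ℝ // K ⊆ A ∧ IsCompact K}, volume K.1 := by
    rw [hA.measure_eq_iSup_isCompact, iSup_subtype]
    simp only [iSup_and]
  have eB : volume B = ⨆ K : {K : Set ℝ // K ⊆ B ∧ IsCompact K}, volume K.1 := by
    rw [hB.measure_eq_iSup_isCompact, iSup_subtype]
    simp only [iSup_and]
  have : Nonempty {K : Set ℝ // K ⊆ A ∧ IsCompact K} := ⟨⟨∅, empty_subset _, isCompact_empty⟩⟩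
  have : Nonempty {K : Set ℝ // K ⊆ B ∧ IsCompact K} := ⟨⟨∅, empty_subset _, isCompact_empty⟩⟩
  rw [eA, eB, ENNReal.mul_iSup, ENNReal.mul_iSup]
  refine ENNReal.iSup_add_iSup_le ?_
  rintro ⟨K, hKA, hK⟩ ⟨L, hLB, hL⟩
  refine le_trans ?_ (bm_one_compact ha hb hab (hK.insert p) (hL.insert q) (insert_nonempty _ _)
    (insert_nonempty _ _) (C := C) ?_)
  · gcongr
    · exact subset_insert _ _
    · exact subset_insert _ _
  · intro x hx y hy
    exact H x (insert_subset hp hKA hx) y (insert_subset hq hLB hy)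

/-- Layer cake formula for functions bounded by one. -/
theorem layer_cake_le_one {α : Type*} [MeasurableSpace α] (μ : Measure α) {u : α → ℝ≥0∞}
    (hu : Measurable u) (h1 : ∀ x, u x ≤ 1) :
    ∫⁻ x, u x ∂μ = ∫⁻ s in Ioo (0 : ℝ) 1, μ {x | ENNReal.ofReal s ≤ u x} := by
  have hne : ∀ x, u x ≠ ∞ := fun x => ne_top_of_le_ne_top ENNReal.one_ne_top (h1 x)
  have e1 : ∫⁻ x, u x ∂μ = ∫⁻ x, ENNReal.ofReal (u x).toReal ∂μ := by
    simp only [ENNReal.ofReal_toReal (hne _)]
  rw [e1, lintegral_eq_lintegral_meas_le μ (Filter.Eventually.of_forall fun x =>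
    ENNReal.toReal_nonneg) hu.ennreal_toReal.aemeasurable]
  have e2 : (Ioi (0 : ℝ)) = Ioc 0 1 ∪ Ioi 1 := (Ioc_union_Ioi_eq_Ioi zero_le_one).symm
  rw [e2, lintegral_union measurableSet_Ioi (Ioc_disjoint_Ioi le_rfl)]
  have e3 : ∫⁻ t in Ioi (1 : ℝ), μ {a | t ≤ (u a).toReal} = 0 := by
    rw [setLIntegral_congr_fun measurableSet_Ioi (g := fun _ => 0)]
    · simp
    · intro t ht
      have : {a | t ≤ (u a).toReal} = ∅ := by
        ext x
        simp only [mem_ofPred_eq, mem_empty_iff_false, iff_false, not_le]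
        have : (u x).toReal ≤ 1 := by
          simpa using ENNReal.toReal_mono ENNReal.one_ne_top (h1 x)
        exact lt_of_le_of_lt this ht
      simp [this]
  rw [e3, add_zero, ← setLIntegral_congr Ioo_ae_eq_Ioc]
  refine lintegral_congr fun s => ?_
  congr 1
  ext x
  simp only [mem_ofPred_eq]
  exact (ENNReal.ofReal_le_iff_le_toReal (hne x)).symm

/-- Weighted AM-GM in `ℝ≥0∞`. -/
theorem ennreal_am_gm {a b : ℝ} (ha : 0 < a) (hb : 0 < b) (hab : a + b = 1) (p q : ℝ≥0∞) :
    p ^ a * q ^ b ≤ ENNReal.ofReal a * p + ENNReal.ofReal b * q := by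
  rcases eq_or_ne p ∞ with rfl | hp
  · rw [ENNReal.mul_top (by simpa using ha)]; simp
  rcases eq_or_ne q ∞ with rfl | hq
  · rw [ENNReal.mul_top (by simpa using hb)]; simp
  lift p to ℝ≥0 using hp
  lift q to ℝ≥0 using hq
  lift a to ℝ≥0 using ha.le
  lift b to ℝ≥0 using hb.le
  have := NNReal.geom_mean_le_arith_mean2_weighted a b p q (by exact_mod_cast hab)
  rw [← ENNReal.coe_rpow_of_nonneg _ ha.le, ← ENNReal.coe_rpow_of_nonneg _ hb.le]
  simp only [ENNReal.ofReal_coe_nnreal]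
  exact_mod_cast this

/-- The Prékopa–Leindler property of a measure on a real vector space, for weights `a, b`. -/
def PLProp (a b : ℝ) {α : Type*} [AddCommGroup α] [Module ℝ α] [MeasurableSpace α]
    (μ : Measure α) : Prop :=
  ∀ f g h : α → ℝ≥0∞, Measurable f → Measurable g → Measurable h →
    (∀ x y, f x ^ a * g y ^ b ≤ h (a • x + b • y)) →
    (∫⁻ x, f x ∂μ) ^ a * (∫⁻ x, g x ∂μ) ^ b ≤ ∫⁻ x, h x ∂μ

/-- One-dimensional Prékopa–Leindler, normalised case. -/
theorem pl_one_norm {a b : ℝ} (ha : 0 < a) (hb : 0 < b) (hab : a + b = 1)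
    {f g h : ℝ → ℝ≥0∞} (hf : Measurable f) (hg : Measurable g) (hh : Measurable h)
    (hf1 : ⨆ x, f x = 1) (hg1 : ⨆ x, g x = 1)
    (H : ∀ x y, f x ^ a * g y ^ b ≤ h (a • x + b • y)) :
    (∫⁻ x, f x) ^ a * (∫⁻ x, g x) ^ b ≤ ∫⁻ x, h x := by
  have hfle : ∀ x, f x ≤ 1 := fun x => hf1 ▸ le_iSup f x
  have hgle : ∀ x, g x ≤ 1 := fun x => hg1 ▸ le_iSup g x
  have hmin : Measurable fun x => min (h x) 1 := hh.min measurable_const
  refine (ennreal_am_gm ha hb hab _ _).trans (le_trans ?_ (lintegral_mono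
    (f := fun x => min (h x) 1) fun x => min_le_left _ _))
  rw [layer_cake_le_one _ hf hfle, layer_cake_le_one _ hg hgle,
    layer_cake_le_one _ hmin fun x => min_le_right _ _]
  have hanti : ∀ u : ℝ → ℝ≥0∞, Measurable fun s : ℝ => volume {x | ENNReal.ofReal s ≤ u x} := by
    intro u
    refine Antitone.measurable ?_
    intro s t hst
    exact measure_mono fun x hx => (ENNReal.ofReal_le_ofReal hst).trans hx
  rw [← lintegral_const_mul _ (hanti f), ← lintegral_const_mul _ (hanti g),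
    ← lintegral_add_left ((hanti f).const_mul _)]
  refine setLIntegral_mono' measurableSet_Ioo fun s hs => ?_
  have hs1 : ENNReal.ofReal s < 1 := by simpa using hs.2
  refine bm_one ha hb hab (measurableSet_le measurable_const hf)
    (measurableSet_le measurable_const hg) ?_ ?_ ?_
  · obtain ⟨x, hx⟩ := lt_iSup_iff.1 (hf1 ▸ hs1)
    exact ⟨x, hx.le⟩
  · obtain ⟨x, hx⟩ := lt_iSup_iff.1 (hg1 ▸ hs1)
    exact ⟨x, hx.le⟩
  · intro x hx y hy
    simp only [mem_ofPred_eq] at hx hy ⊢
    refine le_min (le_trans ?_ (H x y)) hs1.le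
    calc ENNReal.ofReal s = ENNReal.ofReal s ^ a * ENNReal.ofReal s ^ b := by
          rw [← ENNReal.rpow_add_of_nonneg _ _ ha.le hb.le, hab, ENNReal.rpow_one]
      _ ≤ f x ^ a * g y ^ b := by gcongr

/-- One-dimensional Prékopa–Leindler, bounded case. -/
theorem pl_one_bdd {a b : ℝ} (ha : 0 < a) (hb : 0 < b) (hab : a + b = 1)
    {f g h : ℝ → ℝ≥0∞} (hf : Measurable f) (hg : Measurable g) (hh : Measurable h)
    (hf1 : ⨆ x, f x ≠ ∞) (hg1 : ⨆ x, g x ≠ ∞)
    (H : ∀ x y, f x ^ a * g y ^ b ≤ h (a • x + b • y)) :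
    (∫⁻ x, f x) ^ a * (∫⁻ x, g x) ^ b ≤ ∫⁻ x, h x := by
  set F := ⨆ x, f x with hF
  set G := ⨆ x, g x with hG
  rcases eq_or_ne F 0 with hF0 | hF0
  · have : ∀ x, f x = 0 := ENNReal.iSup_eq_zero.1 hF0
    simp [this, ENNReal.zero_rpow_of_pos ha]
  rcases eq_or_ne G 0 with hG0 | hG0
  · have : ∀ x, g x = 0 := ENNReal.iSup_eq_zero.1 hG0
    simp [this, ENNReal.zero_rpow_of_pos hb]
  have hFi : F⁻¹ ≠ ∞ := ENNReal.inv_ne_top.2 hF0
  have hGi : G⁻¹ ≠ ∞ := ENNReal.inv_ne_top.2 hG0
  have hFi0 : F⁻¹ ≠ 0 := ENNReal.inv_ne_zero.2 hf1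
  have hGi0 : G⁻¹ ≠ 0 := ENNReal.inv_ne_zero.2 hg1
  set c := F⁻¹ ^ a * G⁻¹ ^ b with hc
  have hc0 : c ≠ 0 := mul_ne_zero (ENNReal.rpow_pos (pos_iff_ne_zero.2 hFi0) hFi).ne'
    (ENNReal.rpow_pos (pos_iff_ne_zero.2 hGi0) hGi).ne'
  have hct : c ≠ ∞ := ENNReal.mul_ne_top (ENNReal.rpow_ne_top_of_nonneg ha.le hFi)
    (ENNReal.rpow_ne_top_of_nonneg hb.le hGi)
  have key := pl_one_norm ha hb hab (f := fun x => F⁻¹ * f x) (g := fun x => G⁻¹ * g x)
    (h := fun x => c * h x) (hf.const_mul _) (hg.const_mul _) (hh.const_mul _)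
    (by rw [← ENNReal.mul_iSup]; exact ENNReal.inv_mul_cancel hF0 hf1)
    (by rw [← ENNReal.mul_iSup]; exact ENNReal.inv_mul_cancel hG0 hg1) (by
      intro x y
      rw [ENNReal.mul_rpow_of_nonneg _ _ ha.le, ENNReal.mul_rpow_of_nonneg _ _ hb.le,
        mul_mul_mul_comm]
      exact mul_le_mul_right (H x y) _)
  rw [lintegral_const_mul _ hf, lintegral_const_mul _ hg, lintegral_const_mul _ hh,
    ENNReal.mul_rpow_of_nonneg _ _ ha.le, ENNReal.mul_rpow_of_nonneg _ _ hb.le,
    mul_mul_mul_comm] at key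
  exact (ENNReal.mul_le_mul_iff_right hc0 hct).1 key

theorem rpow_iSup' {ι : Sort*} (u : ι → ℝ≥0∞) {a : ℝ} (ha : 0 < a) :
    (⨆ i, u i) ^ a = ⨆ i, u i ^ a :=
  (ENNReal.orderIsoRpow a ha).map_iSup u

/-- One-dimensional Prékopa–Leindler. -/
theorem plProp_real {a b : ℝ} (ha : 0 < a) (hb : 0 < b) (hab : a + b = 1) :
    PLProp a b (volume : Measure ℝ) := by
  intro f g h hf hg hh H
  have trunc : ∀ u : ℝ → ℝ≥0∞, Measurable u →
      ∫⁻ x, u x = ⨆ n : ℕ, ∫⁻ x, min (u x) n := by
    intro u hu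
    rw [← lintegral_iSup (fun n => hu.min measurable_const)]
    · refine lintegral_congr fun x => ?_
      rw [← inf_iSup_eq (a := u x) (f := fun n : ℕ => (n : ℝ≥0∞)), ENNReal.iSup_natCast]
      simp
    · intro n m hnm x
      exact min_le_min le_rfl (by exact_mod_cast hnm)
  rw [trunc f hf, trunc g hg, rpow_iSup' _ ha, rpow_iSup' _ hb, ENNReal.iSup_mul]
  refine iSup_le fun n => ?_
  rw [ENNReal.mul_iSup]
  refine iSup_le fun m => ?_
  refine pl_one_bdd ha hb hab (hf.min measurable_const) (hg.min measurable_const) hh ?_ ?_ ?_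
  · exact ne_top_of_le_ne_top (ENNReal.natCast_ne_top n) (iSup_le fun x => min_le_right _ _)
  · exact ne_top_of_le_ne_top (ENNReal.natCast_ne_top m) (iSup_le fun x => min_le_right _ _)
  · intro x y
    refine le_trans ?_ (H x y)
    gcongr
    · exact min_le_left _ _
    · exact min_le_left _ _

/-- The Prékopa–Leindler property tensorises. -/
theorem PLProp.prod {a b : ℝ} {α β : Type*} [AddCommGroup α] [Module ℝ α] [MeasurableSpace α]
    [AddCommGroup β] [Module ℝ β] [MeasurableSpace β] {μ : Measure α} {ν : Measure β}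
    [SFinite ν] (hμ : PLProp a b μ) (hν : PLProp a b ν) : PLProp a b (μ.prod ν) := by
  intro f g h hf hg hh H
  rw [lintegral_prod _ hf.aemeasurable, lintegral_prod _ hg.aemeasurable,
    lintegral_prod _ hh.aemeasurable]
  refine hμ _ _ _ hf.lintegral_prod_right' hg.lintegral_prod_right' hh.lintegral_prod_right' ?_
  intro x x'
  exact hν (fun y => f (x, y)) (fun y => g (x', y)) (fun y => h (a • x + b • x', y))
    (hf.comp measurable_prodMk_left) (hg.comp measurable_prodMk_left)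
    (hh.comp measurable_prodMk_left) fun y y' => H (x, y) (x', y')

/-- Transfer of the Prékopa–Leindler property along a measure preserving map that respects the
convex combination. -/
theorem PLProp.of_measurePreserving {a b : ℝ} {α β : Type*} [AddCommGroup α] [Module ℝ α]
    [MeasurableSpace α] [AddCommGroup β] [Module ℝ β] [MeasurableSpace β] {μ : Measure α}
    {ν : Measure β} (hμ : PLProp a b μ) {e : α → β} (he : MeasurePreserving e μ ν)
    (hlin : ∀ x y, e (a • x + b • y) = a • e x + b • e y) : PLProp a b ν := by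
  intro f g h hf hg hh H
  rw [← he.lintegral_comp hf, ← he.lintegral_comp hg, ← he.lintegral_comp hh]
  refine hμ _ _ _ (hf.comp he.measurable) (hg.comp he.measurable) (hh.comp he.measurable) ?_
  intro x y
  rw [hlin]
  exact H _ _

theorem plProp_pi_fin {a b : ℝ} (ha : 0 < a) (hb : 0 < b) (hab : a + b = 1) (n : ℕ) :
    PLProp a b (volume : Measure (Fin n → ℝ)) := by
  induction n with
  | zero =>
    intro f g h hf hg hh H
    rw [Measure.volume_pi_eq_dirac (0 : Fin 0 → ℝ)]
    simp only [lintegral_dirac]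
    simpa using H 0 0
  | succ n ih =>
    have h1 : PLProp a b ((volume : Measure ℝ).prod (volume : Measure (Fin n → ℝ))) :=
      (plProp_real ha hb hab).prod ih
    refine h1.of_measurePreserving
      ((volume_preserving_piFinSuccAbove (fun _ : Fin (n + 1) => ℝ) 0).symm _) ?_
    rintro ⟨x, u⟩ ⟨y, v⟩
    ext i
    refine Fin.cases ?_ (fun j => ?_) i <;>
      simp [MeasurableEquiv.piFinSuccAbove_symm_apply, Fin.insertNthEquiv]

theorem plProp_euclidean {a b : ℝ} (ha : 0 < a) (hb : 0 < b) (hab : a + b = 1) (n : ℕ) :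
    PLProp a b (volume : Measure (EuclideanSpace ℝ (Fin n))) :=
  (plProp_pi_fin ha hb hab n).of_measurePreserving (PiLp.volume_preserving_toLp (Fin n))
    fun _ _ => rfl

/-- **Prékopa–Leindler inequality** on `EuclideanSpace ℝ (Fin n)`. -/
theorem prekopa_leindler {a b : ℝ} (ha : 0 < a) (hb : 0 < b) (hab : a + b = 1) {n : ℕ}
    {f g h : EuclideanSpace ℝ (Fin n) → ℝ≥0∞} (hf : Measurable f) (hg : Measurable g)
    (hh : Measurable h) (H : ∀ x y, f x ^ a * g y ^ b ≤ h (a • x + b • y)) :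
    (∫⁻ x, f x) ^ a * (∫⁻ x, g x) ^ b ≤ ∫⁻ x, h x :=
  plProp_euclidean ha hb hab n f g h hf hg hh H

/-- **Prékopa–Leindler inequality** on `Fin n → ℝ`. -/
theorem prekopa_leindler_pi {a b : ℝ} (ha : 0 < a) (hb : 0 < b) (hab : a + b = 1) {n : ℕ}
    {f g h : (Fin n → ℝ) → ℝ≥0∞} (hf : Measurable f) (hg : Measurable g)
    (hh : Measurable h) (H : ∀ x y, f x ^ a * g y ^ b ≤ h (a • x + b • y)) :
    (∫⁻ x, f x) ^ a * (∫⁻ x, g x) ^ b ≤ ∫⁻ x, h x :=
  plProp_pi_fin ha hb hab n f g h hf hg hh H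

/-- Multiplicative Brunn–Minkowski inequality on `EuclideanSpace ℝ (Fin n)`. -/
theorem brunn_minkowski_mul {a b : ℝ} (ha : 0 < a) (hb : 0 < b) (hab : a + b = 1) {n : ℕ}
    {A B C : Set (EuclideanSpace ℝ (Fin n))} (hA : MeasurableSet A) (hB : MeasurableSet B)
    (hC : MeasurableSet C) (H : ∀ x ∈ A, ∀ y ∈ B, a • x + b • y ∈ C) :
    volume A ^ a * volume B ^ b ≤ volume C := by
  have key := prekopa_leindler ha hb hab (f := A.indicator 1) (g := B.indicator 1)
    (h := C.indicator 1) (measurable_one.indicator hA) (measurable_one.indicator hB)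
    (measurable_one.indicator hC) (by
      intro x y
      by_cases hx : x ∈ A
      · by_cases hy : y ∈ B
        · simp [hx, hy, H x hx y hy]
        · simp [hy, ENNReal.zero_rpow_of_pos hb]
      · simp [hx, ENNReal.zero_rpow_of_pos ha])
  simpa only [lintegral_indicator_one hA, lintegral_indicator_one hB,
    lintegral_indicator_one hC] using key

end Crest.Agent.Lib.PL
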